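import Vale.Agent.P112.H54.Weak

/-!
# P112, block KT: generations (abstract last step)

If every generation satisfies a packing inequality with constant `CG` and the threshold `K` is
large, then the counting function of the whole family is bounded in `L²`.
-/

namespace Vale.Agent.P112.H54

open MeasureTheory Set Metric Finset
open scoped ENNReal

section
variable {ι : Type*} 

open Classical in
/-- greedy selection along the levels, for an arbitrary predicate -/
theorem exists_gen (F : Finset ι) (lv : ι → ℕ) (P : Finset ι → ι → Prop) :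
    ∃ G ⊆ F, (∀ i ∈ G, ¬ P (G.filter (fun j => lv j < lv i)) i) ∧
      ∀ i ∈ F \ G, P (G.filter (fun j => lv j < lv i)) i := by
  -- build the part of level `< n`
  have key : ∀ n : ℕ, ∃ G ⊆ F.filter (fun i => lv i < n),
      ∀ i ∈ F, lv i < n → (i ∈ G ↔ ¬ P (G.filter (fun j => lv j < lv i)) i) := by
    intro n
    induction n with
    | zero => exact ⟨∅, by simp, by simp⟩
    | succ n ih =>
      obtain ⟨G, hG, hG2⟩ := ih
      refine ⟨G ∪ F.filter (fun i => lv i = n ∧ ¬ P G i), ?_, ?_⟩
      · intro i hi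
        rw [Finset.mem_union, mem_filter] at hi
        rw [mem_filter]
        rcases hi with hi | hi
        · have := mem_filter.1 (hG hi)
          exact ⟨this.1, by omega⟩
        · exact ⟨hi.1, by omega⟩
      · intro i hi hin
        -- the filter of the new set below the level of `i`
        have hf : (G ∪ F.filter (fun i => lv i = n ∧ ¬ P G i)).filter (fun j => lv j < lv i) =
            G.filter (fun j => lv j < lv i) := by
          ext j
          simp only [mem_filter, Finset.mem_union]
          constructor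
          · rintro ⟨h1 | h1, h2⟩
            · exact ⟨h1, h2⟩
            · omega
          · rintro ⟨h1, h2⟩
            exact ⟨Or.inl h1, h2⟩
        rw [hf]
        rcases (Nat.lt_succ_iff.1 hin).lt_or_eq with h | h
        · rw [← hG2 i hi h, Finset.mem_union, mem_filter]
          constructor
          · rintro (h1 | h1)
            · exact h1
            · omega
          · exact Or.inl
        · have hGf : G.filter (fun j => lv j < lv i) = G := by
            rw [filter_eq_self]
            intro j hj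
            have := mem_filter.1 (hG hj)
            omega
          rw [hGf, Finset.mem_union, mem_filter]
          constructor
          · rintro (h1 | h1)
            · have := mem_filter.1 (hG h1)
              omega
            · exact h1.2.2
          · intro h1
            exact Or.inr ⟨hi, h, h1⟩
  obtain ⟨G, hG, hG2⟩ := key (F.sup lv + 1)
  have hlt : ∀ i ∈ F, lv i < F.sup lv + 1 := fun i hi => Nat.lt_succ_of_le (Finset.le_sup hi)
  have hGF : G ⊆ F := hG.trans (filter_subset _ _)
  refine ⟨G, hGF, ?_, ?_⟩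
  · intro i hi
    exact (hG2 i (hGF hi) (hlt i (hGF hi))).1 hi
  · intro i hi
    rw [Finset.mem_sdiff] at hi
    by_contra h
    exact hi.2 ((hG2 i hi.1 (hlt i hi.1)).2 h)

/-- counting function -/
noncomputable def cntN (T : ι → Set (ℝ × ℝ)) (G : Finset ι) (z : ℝ × ℝ) : ℝ≥0∞ :=
  ∑ i ∈ G, (T i).indicator (fun _ => 1) z

lemma measurable_cntN {T : ι → Set (ℝ × ℝ)} (hT : ∀ i, MeasurableSet (T i)) (G : Finset ι) :
    Measurable (cntN T G) := by
  unfold cntN
  exact Finset.measurable_fun_sum _ fun i _ => measurable_const.indicator (hT i)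

lemma cntN_mono (T : ι → Set (ℝ × ℝ)) {G H : Finset ι} (h : G ⊆ H) (z : ℝ × ℝ) :
    cntN T G z ≤ cntN T H z := by
  unfold cntN
  exact Finset.sum_le_sum_of_subset h

/-- every point of `T i` lies in a vertical interval on which `N_G` has average `≥ K` -/
def Cov (T : ι → Set (ℝ × ℝ)) (K : ℝ) (G : Finset ι) (i : ι) : Prop :=
  ∀ z ∈ T i, ∃ c r, 0 < r ∧ z.2 ∈ closedBall c r ∧
    ENNReal.ofReal (K * (2 * r)) ≤ ∫⁻ t in closedBall c r, cntN T G (z.1, t)

lemma Cov.mono {T : ι → Set (ℝ × ℝ)} {K : ℝ} {G H : Finset ι} (h : G ⊆ H) {i : ι}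
    (hc : Cov T K G i) : Cov T K H i := by
  intro z hz
  obtain ⟨c, r, hr, hzr, h2⟩ := hc z hz
  exact ⟨c, r, hr, hzr, h2.trans (lintegral_mono fun t => cntN_mono T h _)⟩

lemma lintegral_cntN_sq {T : ι → Set (ℝ × ℝ)} (hT : ∀ i, MeasurableSet (T i)) (G : Finset ι) :
    ∫⁻ z, cntN T G z ^ 2 = ∑ i ∈ G, ∑ j ∈ G, volume (T i ∩ T j) := by
  have : ∀ z, cntN T G z ^ 2 = ∑ i ∈ G, ∑ j ∈ G, (T i ∩ T j).indicator (fun _ => (1 : ℝ≥0∞)) z := by
    intro z
    unfold cntN
    rw [sq, Finset.sum_mul_sum]
    refine Finset.sum_congr rfl fun i _ => Finset.sum_congr rfl fun j _ => ?_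
    by_cases h1 : z ∈ T i <;> by_cases h2 : z ∈ T j <;> simp [indicator, h1, h2]
  simp_rw [this]
  rw [lintegral_finsetSum _ (fun i _ => Finset.measurable_fun_sum _ fun j _ =>
    measurable_const.indicator ((hT i).inter (hT j)))]
  refine Finset.sum_congr rfl fun i _ => ?_
  rw [lintegral_finsetSum _ (fun j _ => measurable_const.indicator ((hT i).inter (hT j)))]
  refine Finset.sum_congr rfl fun j _ => ?_
  rw [lintegral_indicator ((hT i).inter (hT j)), setLIntegral_const, one_mul]

open Classical in
/-- packing at shorter tubes gives the `L²` bound of one generation -/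
lemma gen_sq {T : ι → Set (ℝ × ℝ)} (hT : ∀ i, MeasurableSet (T i)) (lv : ι → ℕ) (G : Finset ι)
    (CG : ℝ≥0∞)
    (hp : ∀ i ∈ G, ∑ j ∈ G with lv i ≤ lv j, volume (T i ∩ T j) ≤ CG * volume (T i)) :
    ∫⁻ z, cntN T G z ^ 2 ≤ 2 * CG * ∑ i ∈ G, volume (T i) := by
  rw [lintegral_cntN_sq hT]
  have h1 : ∑ i ∈ G, ∑ j ∈ G, volume (T i ∩ T j) ≤
      ∑ i ∈ G, ∑ j ∈ G with lv i ≤ lv j, volume (T i ∩ T j) +
      ∑ i ∈ G, ∑ j ∈ G with lv j ≤ lv i, volume (T i ∩ T j) := by
    rw [← Finset.sum_add_distrib]
    refine Finset.sum_le_sum fun i _ => ?_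
    rw [Finset.sum_filter, Finset.sum_filter, ← Finset.sum_add_distrib]
    refine Finset.sum_le_sum fun j _ => ?_
    rcases le_total (lv i) (lv j) with h | h
    · rw [if_pos h]
      exact le_self_add
    · rw [if_pos h]
      exact le_add_self
  have h2 : ∑ i ∈ G, ∑ j ∈ G with lv j ≤ lv i, volume (T i ∩ T j) =
      ∑ i ∈ G, ∑ j ∈ G with lv i ≤ lv j, volume (T i ∩ T j) := by
    simp_rw [Finset.sum_filter]
    rw [Finset.sum_comm]
    refine Finset.sum_congr rfl fun i _ => Finset.sum_congr rfl fun j _ => ?_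
    rw [inter_comm]
  calc _ ≤ _ := h1
    _ = 2 * ∑ i ∈ G, ∑ j ∈ G with lv i ≤ lv j, volume (T i ∩ T j) := by rw [h2]; ring
    _ ≤ 2 * ∑ i ∈ G, CG * volume (T i) := by
        gcongr with i hi
        exact hp i hi
    _ = _ := by rw [← Finset.mul_sum]; ring

/-- packing in an arbitrary set -/
lemma packing {T E : ι → Set (ℝ × ℝ)} (hE : ∀ i, MeasurableSet (E i)) {M d : ℝ≥0∞} (G : Finset ι) (U : Set (ℝ × ℝ)) (hU : MeasurableSet U)
    (hM : ∀ z, cntN E G z ≤ M) (hd : ∀ i ∈ G, d * volume (T i) ≤ volume (E i))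
    (hTU : ∀ i ∈ G, E i ⊆ U) :
    d * ∑ i ∈ G, volume (T i) ≤ M * volume U := by
  calc d * ∑ i ∈ G, volume (T i) = ∑ i ∈ G, d * volume (T i) := Finset.mul_sum _ _ _
    _ ≤ ∑ i ∈ G, volume (E i) := Finset.sum_le_sum hd
    _ = ∫⁻ z, cntN E G z := by
        unfold cntN
        rw [lintegral_finsetSum _ (fun i _ => measurable_const.indicator (hE i))]
        refine Finset.sum_congr rfl fun i _ => ?_
        rw [lintegral_indicator (hE i), setLIntegral_const, one_mul]
    _ ≤ ∫⁻ z, U.indicator (fun _ => M) z := by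
        refine lintegral_mono fun z => ?_
        by_cases hz : z ∈ U
        · rw [indicator_of_mem hz]
          exact hM z
        · rw [indicator_of_notMem hz]
          unfold cntN
          refine (Finset.sum_eq_zero fun i hi => ?_).le
          rw [indicator_of_notMem]
          exact fun h => hz (hTU i hi h)
    _ = _ := by rw [lintegral_indicator hU, setLIntegral_const]

open Classical in
/-- **[GEN]** -/
theorem gen {T E : ι → Set (ℝ × ℝ)} (hT : ∀ i, MeasurableSet (T i))
    (hE : ∀ i, MeasurableSet (E i)) (hET : ∀ i, E i ⊆ T i) (hne : ∀ i, (T i).Nonempty)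
    (lv : ι → ℕ) {M d CG K : ℝ} (hMpos : 0 < M) (hCG : 0 < CG) (hK : 0 < K)
    (hbig : 40 * CG * M ≤ d * K ^ 2) (F : Finset ι) 
    (hM : ∀ z, cntN E F z ≤ ENNReal.ofReal M)
    (hd : ∀ i ∈ F, ENNReal.ofReal d * volume (T i) ≤ volume (E i))
    (hpack : ∀ G ⊆ F, (∀ i ∈ G, ¬ Cov T K (G.filter (fun j => lv j < lv i)) i) →
      ∀ i ∈ G, ∑ j ∈ G with lv i ≤ lv j, volume (T i ∩ T j) ≤ ENNReal.ofReal CG * volume (T i)) :
    ∫⁻ z, cntN T F z ^ 2 ≤ 8 * ENNReal.ofReal CG * ∑ i ∈ F, volume (T i) := by
  induction F using Finset.strongInduction with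
  | H F ih =>
    rcases F.eq_empty_or_nonempty with hF | hF
    · subst hF
      simp [cntN]
    obtain ⟨G, hGF, hG1, hG2⟩ := exists_gen F lv (Cov T K)
    have hpG := hpack G hGF hG1
    have hsqG := gen_sq hT lv G _ hpG
    -- `G` is non empty
    have hGne : G.Nonempty := by
      obtain ⟨i, hi, him⟩ := F.exists_min_image lv hF
      by_contra hne'
      rw [Finset.not_nonempty_iff_eq_empty] at hne'
      subst hne'
      have := hG2 i (by simpa using hi)
      obtain ⟨z, hz⟩ := hne i
      obtain ⟨c, r, hr, _, h⟩ := this z hz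
      simp only [Finset.filter_empty, cntN, Finset.sum_empty, lintegral_zero, nonpos_iff_eq_zero,
        ENNReal.ofReal_eq_zero] at h
      have : 0 < K * (2 * r) := by positivity
      linarith
    set F' := F \ G with hF'
    have hF'F : F' ⊆ F := Finset.sdiff_subset
    have hF'lt : F' ⊂ F := by
      refine Finset.ssubset_iff_subset_ne.2 ⟨hF'F, fun h => ?_⟩
      obtain ⟨i, hi⟩ := hGne
      have : i ∈ F' := by rw [h]; exact hGF hi
      exact (Finset.mem_sdiff.1 this).2 hi
    have hih := ih F' hF'lt (fun z => (cntN_mono E hF'F z).trans (hM z))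
      (fun i hi => hd i (hF'F hi)) (fun G' hG' => hpack G' (hG'.trans hF'F))
    -- the rejected tubes
    set U : Set (ℝ × ℝ) := ⋃ i ∈ F', T i with hU
    have hUm : MeasurableSet U := F'.measurableSet_biUnion fun i _ => hT i
    have hw : ENNReal.ofReal (K ^ 2) * volume U ≤ 5 * ∫⁻ z, cntN T G z ^ 2 := by
      refine weak22_prod _ (measurable_cntN hT G) hK U hUm ?_
      intro z hz
      simp only [hU, mem_iUnion] at hz
      obtain ⟨i, hi, hzi⟩ := hz
      exact (hG2 i hi).mono (filter_subset _ _) z hzi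
    have hp2 : ENNReal.ofReal d * ∑ i ∈ F', volume (T i) ≤ ENNReal.ofReal M * volume U := by
      refine packing hE F' U hUm (fun z => (cntN_mono E hF'F z).trans (hM z))
        (fun i hi => hd i (hF'F hi)) ?_
      intro i hi z hz
      simp only [hU, mem_iUnion]
      exact ⟨i, hi, hET i hz⟩
    have h4 : 4 * ∑ i ∈ F', volume (T i) ≤ ∑ i ∈ G, volume (T i) := by
      have e1 : ENNReal.ofReal (10 * CG * M) * (4 * ∑ i ∈ F', volume (T i)) ≤
          ENNReal.ofReal (10 * CG * M) * ∑ i ∈ G, volume (T i) := by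
        calc ENNReal.ofReal (10 * CG * M) * (4 * ∑ i ∈ F', volume (T i))
            = ENNReal.ofReal (40 * CG * M) * ∑ i ∈ F', volume (T i) := by
              rw [← mul_assoc, show (4 : ℝ≥0∞) = ENNReal.ofReal 4 by norm_num,
                ← ENNReal.ofReal_mul (by positivity)]
              congr 2
              ring
          _ ≤ ENNReal.ofReal (K ^ 2 * d) * ∑ i ∈ F', volume (T i) := by
              rw [mul_comm (K ^ 2) d]
              gcongr
          _ = ENNReal.ofReal (K ^ 2) * (ENNReal.ofReal d * ∑ i ∈ F', volume (T i)) := by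
              rw [← mul_assoc, ← ENNReal.ofReal_mul (sq_nonneg K)]
          _ ≤ ENNReal.ofReal (K ^ 2) * (ENNReal.ofReal M * volume U) := by gcongr
          _ = ENNReal.ofReal M * (ENNReal.ofReal (K ^ 2) * volume U) := by ring
          _ ≤ ENNReal.ofReal M * (5 * (2 * ENNReal.ofReal CG * ∑ i ∈ G, volume (T i))) := by
              refine mul_le_mul_right (hw.trans (mul_le_mul_right hsqG _)) _
          _ = ENNReal.ofReal (10 * CG * M) * ∑ i ∈ G, volume (T i) := by
              have : ENNReal.ofReal (10 * CG * M) =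
                  10 * ENNReal.ofReal CG * ENNReal.ofReal M := by
                rw [ENNReal.ofReal_mul (by positivity), ENNReal.ofReal_mul (by norm_num)]
                norm_num
              rw [this]
              ring
      have hpos : ENNReal.ofReal (10 * CG * M) ≠ 0 := by
        rw [Ne, ENNReal.ofReal_eq_zero, not_le]
        positivity
      exact (ENNReal.mul_le_mul_iff_right hpos ENNReal.ofReal_ne_top).1 e1
    -- combine
    have hsplit : ∀ z, cntN T F z ^ 2 ≤ 2 * cntN T G z ^ 2 + 2 * cntN T F' z ^ 2 := by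
      intro z
      have e : cntN T F z = cntN T G z + cntN T F' z := by
        unfold cntN
        rw [hF', add_comm, Finset.sum_sdiff hGF]
      rw [e]
      generalize cntN T G z = a
      generalize cntN T F' z = b
      by_cases ha : a = ∞
      · simp [ha]
      by_cases hb : b = ∞
      · simp [hb]
      lift a to NNReal using ha
      lift b to NNReal using hb
      norm_cast
      have : ((a + b : NNReal) : ℝ) ^ 2 ≤ 2 * (a : ℝ) ^ 2 + 2 * (b : ℝ) ^ 2 := by
        push_cast
        nlinarith [sq_nonneg ((a : ℝ) - b)]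
      exact_mod_cast this
    calc ∫⁻ z, cntN T F z ^ 2
        ≤ ∫⁻ z, (2 * cntN T G z ^ 2 + 2 * cntN T F' z ^ 2) := lintegral_mono hsplit
      _ = 2 * (∫⁻ z, cntN T G z ^ 2) + 2 * ∫⁻ z, cntN T F' z ^ 2 := by
          rw [lintegral_add_left (((measurable_cntN hT G).pow_const 2).const_mul 2),
            lintegral_const_mul _ ((measurable_cntN hT G).pow_const 2),
            lintegral_const_mul _ ((measurable_cntN hT F').pow_const 2)]
      _ ≤ 2 * (2 * ENNReal.ofReal CG * ∑ i ∈ G, volume (T i)) +
          2 * (8 * ENNReal.ofReal CG * ∑ i ∈ F', volume (T i)) := by gcongr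
      _ = 4 * ENNReal.ofReal CG * ∑ i ∈ G, volume (T i) +
          4 * ENNReal.ofReal CG * (4 * ∑ i ∈ F', volume (T i)) := by ring
      _ ≤ 4 * ENNReal.ofReal CG * ∑ i ∈ G, volume (T i) +
          4 * ENNReal.ofReal CG * ∑ i ∈ G, volume (T i) := by gcongr
      _ = 8 * ENNReal.ofReal CG * ∑ i ∈ G, volume (T i) := by ring
      _ ≤ _ := by
          gcongr

end

end Vale.Agent.P112.H54
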