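import Mathlib

/-!
# P112, block KT: the dyadic stopping lemma

Cells are pairs `(n, m)` (level, position); the cell `(n, m)` has length `(1/2)^n` and the
children `(n+1, 2m)`, `(n+1, 2m+1)`.
-/

namespace Vale.Agent.P112.H54

open Finset

/-- position of the level `n` ancestor of the cell `(j, m)` (for `n ≤ j`) -/
def anc (j : ℕ) (m : ℤ) (n : ℕ) : ℤ := m / 2 ^ (j - n)

lemma anc_self (j : ℕ) (m : ℤ) : anc j m j = m := by simp [anc]

lemma anc_succ {j n : ℕ} (h : n + 1 ≤ j) (m : ℤ) : anc j m n = anc j m (n + 1) / 2 := by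
  unfold anc
  have : j - n = (j - (n + 1)) + 1 := by omega
  rw [this, pow_succ, Int.ediv_ediv_of_nonneg (by positivity)]

lemma anc_child0 {n j : ℕ} (h : j ≤ n) (m : ℤ) : anc (n + 1) (2 * m) j = anc n m j := by
  unfold anc
  have : n + 1 - j = 1 + (n - j) := by omega
  rw [this, pow_add, pow_one, ← Int.ediv_ediv_of_nonneg (by norm_num)]
  congr 1
  omega

lemma anc_child1 {n j : ℕ} (h : j ≤ n) (m : ℤ) : anc (n + 1) (2 * m + 1) j = anc n m j := by
  unfold anc
  have : n + 1 - j = 1 + (n - j) := by omega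
  rw [this, pow_add, pow_one, ← Int.ediv_ediv_of_nonneg (by norm_num)]
  congr 1
  omega

section
variable {ι : Type*} (lv : ι → ℕ) (ps : ι → ℤ)

/-- the cell of `i` is contained in the cell `(n, m)` -/
def Below (n : ℕ) (m : ℤ) (i : ι) : Prop := n ≤ lv i ∧ anc (lv i) (ps i) n = m

/-- the cell of `i` contains the cell `(n, m)` -/
def Above (n : ℕ) (m : ℤ) (i : ι) : Prop := lv i ≤ n ∧ anc n m (lv i) = ps i

lemma below_iff (n : ℕ) (m : ℤ) (i : ι) :
    Below lv ps n m i ↔ (lv i = n ∧ ps i = m) ∨ Below lv ps (n + 1) (2 * m) i ∨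
      Below lv ps (n + 1) (2 * m + 1) i := by
  unfold Below
  constructor
  · rintro ⟨h1, h2⟩
    rcases h1.eq_or_lt with h | h
    · left
      refine ⟨h.symm, ?_⟩
      rw [← h2, h, anc_self]
    · right
      rw [anc_succ (by omega : n + 1 ≤ lv i)] at h2
      have : anc (lv i) (ps i) (n + 1) = 2 * m ∨ anc (lv i) (ps i) (n + 1) = 2 * m + 1 := by
        omega
      rcases this with h' | h'
      · exact Or.inl ⟨by omega, h'⟩
      · exact Or.inr ⟨by omega, h'⟩
  · rintro (⟨h1, h2⟩ | ⟨h1, h2⟩ | ⟨h1, h2⟩)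
    · refine ⟨h1.ge, ?_⟩
      rw [← h1, anc_self, h2]
    · refine ⟨by omega, ?_⟩
      rw [anc_succ (by omega : n + 1 ≤ lv i), h2]
      omega
    · refine ⟨by omega, ?_⟩
      rw [anc_succ (by omega : n + 1 ≤ lv i), h2]
      omega

lemma above_child0 (n : ℕ) (m : ℤ) (i : ι) :
    (Above lv ps (n + 1) (2 * m) i ∧ lv i < n + 1) ↔ Above lv ps n m i := by
  unfold Above
  constructor
  · rintro ⟨⟨_, h2⟩, h3⟩
    have h4 : lv i ≤ n := by omega
    exact ⟨h4, by rw [← anc_child0 h4, h2]⟩
  · rintro ⟨h1, h2⟩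
    exact ⟨⟨by omega, by rw [anc_child0 h1, h2]⟩, by omega⟩

lemma above_child1 (n : ℕ) (m : ℤ) (i : ι) :
    (Above lv ps (n + 1) (2 * m + 1) i ∧ lv i < n + 1) ↔ Above lv ps n m i := by
  unfold Above
  constructor
  · rintro ⟨⟨_, h2⟩, h3⟩
    have h4 : lv i ≤ n := by omega
    exact ⟨h4, by rw [← anc_child1 h4, h2]⟩
  · rintro ⟨h1, h2⟩
    exact ⟨⟨by omega, by rw [anc_child1 h1, h2]⟩, by omega⟩

lemma above_iff (n : ℕ) (m : ℤ) (i : ι) :
    Above lv ps n m i ↔ (lv i = n ∧ ps i = m) ∨ (Above lv ps n m i ∧ lv i < n) := by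
  constructor
  · rintro ⟨h1, h2⟩
    rcases h1.eq_or_lt with h | h
    · left
      refine ⟨h, ?_⟩
      rw [← h2, h, anc_self]
    · exact Or.inr ⟨⟨h1, h2⟩, h⟩
  · rintro (⟨h1, h2⟩ | ⟨h, _⟩)
    · exact ⟨h1.le, by rw [h1, anc_self, h2]⟩
    · exact h

open Classical in
/-- splitting the sum over the cells below `(n,m)` -/
lemma sum_below (S : Finset ι) (f : ι → ℝ) (n : ℕ) (m : ℤ) :
    ∑ i ∈ S with Below lv ps n m i, f i =
      ∑ i ∈ S with (lv i = n ∧ ps i = m), f i +
      (∑ i ∈ S with Below lv ps (n + 1) (2 * m) i, f i +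
       ∑ i ∈ S with Below lv ps (n + 1) (2 * m + 1) i, f i) := by
  have e : S.filter (fun i => Below lv ps n m i) =
      S.filter (fun i => lv i = n ∧ ps i = m) ∪
      (S.filter (fun i => Below lv ps (n + 1) (2 * m) i) ∪
       S.filter (fun i => Below lv ps (n + 1) (2 * m + 1) i)) := by
    ext i
    simp only [mem_filter, mem_union, below_iff lv ps n m i]
    tauto
  have d1 : Disjoint (S.filter (fun i => Below lv ps (n + 1) (2 * m) i))
      (S.filter (fun i => Below lv ps (n + 1) (2 * m + 1) i)) := by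
    rw [disjoint_filter]
    rintro i _ ⟨_, h1⟩ ⟨_, h2⟩
    omega
  have d2 : Disjoint (S.filter (fun i => lv i = n ∧ ps i = m))
      (S.filter (fun i => Below lv ps (n + 1) (2 * m) i) ∪
       S.filter (fun i => Below lv ps (n + 1) (2 * m + 1) i)) := by
    rw [disjoint_left]
    intro i hi hi2
    simp only [mem_filter, mem_union] at hi hi2
    obtain ⟨_, h1, _⟩ := hi
    rcases hi2 with ⟨_, h, _⟩ | ⟨_, h, _⟩ <;> omega
  rw [e, sum_union d2, sum_union d1]

open Classical in
lemma sum_above (S : Finset ι) (f : ι → ℝ) (n : ℕ) (m : ℤ) :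
    ∑ i ∈ S with Above lv ps n m i, f i =
      ∑ i ∈ S with (lv i = n ∧ ps i = m), f i +
      ∑ i ∈ S with (Above lv ps n m i ∧ lv i < n), f i := by
  have e : S.filter (fun i => Above lv ps n m i) =
      S.filter (fun i => lv i = n ∧ ps i = m) ∪
      S.filter (fun i => Above lv ps n m i ∧ lv i < n) := by
    ext i
    simp only [mem_filter, mem_union]
    rw [above_iff lv ps n m i]
    tauto
  rw [e, sum_union]
  rw [disjoint_left]
  intro i hi hi2
  simp only [mem_filter] at hi hi2
  omega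

open Classical in
/-- **Stopping lemma.** -/
theorem stop (S : Finset ι) (g : ι → ℕ → ℤ → ℝ) 
    (hadd : ∀ i ∈ S, ∀ n m, Above lv ps n m i →
      g i n m = g i (n + 1) (2 * m) + g i (n + 1) (2 * m + 1))
    (hg0 : ∀ i n m, 0 ≤ g i n m)
    {α κ : ℝ} (hα : 0 ≤ α) 
    (h1 : ∀ n m, ∑ i ∈ S with (lv i = n ∧ ps i = m), g i n m ≤ α * (1 / 2) ^ n)
    (h2 : ∀ n m, κ * (1 / 2) ^ n < ∑ i ∈ S with Above lv ps n m i, g i n m →
      ∀ i ∈ S, Below lv ps n m i → lv i = n)
    {D : ℕ} (hD : ∀ i ∈ S, lv i < D) (k : ℕ) : ∀ n m, D ≤ n + k →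
      ∑ i ∈ S with (Above lv ps n m i ∧ lv i < n), g i n m ≤ 2 * κ * (1 / 2) ^ n →
      ∑ i ∈ S with Below lv ps n m i, g i (lv i) (ps i) +
        ∑ i ∈ S with (Above lv ps n m i ∧ lv i < n), g i n m ≤ (2 * κ + α) * (1 / 2) ^ n := by
  induction k with
  | zero =>
    intro n m hn hA
    have e : S.filter (fun i => Below lv ps n m i) = ∅ := by
      rw [filter_eq_empty_iff]
      rintro i hi ⟨h, _⟩
      have := hD i hi
      omega
    rw [e, sum_empty, zero_add]
    have : 0 ≤ α * (1 / 2 : ℝ) ^ n := by positivity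
    nlinarith
  | succ k ih =>
    intro n m hn hA
    have hcell : ∑ i ∈ S with (lv i = n ∧ ps i = m), g i (lv i) (ps i) =
        ∑ i ∈ S with (lv i = n ∧ ps i = m), g i n m := by
      refine sum_congr rfl fun i hi => ?_
      rw [mem_filter] at hi
      rw [hi.2.1, hi.2.2]
    rw [sum_below lv ps S _ n m, hcell]
    by_cases hs : κ * (1 / 2) ^ n < ∑ i ∈ S with Above lv ps n m i, g i n m
    · -- saturated
      have hn2 := h2 n m hs
      have e0 : S.filter (fun i => Below lv ps (n + 1) (2 * m) i) = ∅ := by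
        rw [filter_eq_empty_iff]
        intro i hi h
        have := hn2 i hi ((below_iff lv ps n m i).2 (Or.inr (Or.inl h)))
        have := h.1
        omega
      have e1 : S.filter (fun i => Below lv ps (n + 1) (2 * m + 1) i) = ∅ := by
        rw [filter_eq_empty_iff]
        intro i hi h
        have := hn2 i hi ((below_iff lv ps n m i).2 (Or.inr (Or.inr h)))
        have := h.1
        omega
      rw [e0, e1, sum_empty]
      have := h1 n m
      nlinarith
    · push Not at hs
      have s1 := sum_above lv ps S (fun i => g i n m) n m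
      have c0 : ∑ i ∈ S with (Above lv ps (n + 1) (2 * m) i ∧ lv i < n + 1), g i (n + 1) (2 * m)
          = ∑ i ∈ S with Above lv ps n m i, g i (n + 1) (2 * m) := by
        refine sum_congr ?_ fun _ _ => rfl
        exact filter_congr fun i _ => above_child0 lv ps n m i
      have c1 : ∑ i ∈ S with (Above lv ps (n + 1) (2 * m + 1) i ∧ lv i < n + 1),
          g i (n + 1) (2 * m + 1)
          = ∑ i ∈ S with Above lv ps n m i, g i (n + 1) (2 * m + 1) := by
        refine sum_congr ?_ fun _ _ => rfl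
        exact filter_congr fun i _ => above_child1 lv ps n m i
      have c2 : ∑ i ∈ S with Above lv ps n m i, g i n m =
          ∑ i ∈ S with Above lv ps n m i, g i (n + 1) (2 * m) +
          ∑ i ∈ S with Above lv ps n m i, g i (n + 1) (2 * m + 1) := by
        rw [← sum_add_distrib]
        refine sum_congr rfl fun i hi => ?_
        rw [mem_filter] at hi
        exact hadd i hi.1 n m hi.2
      have p0 : 0 ≤ ∑ i ∈ S with Above lv ps n m i, g i (n + 1) (2 * m) :=
        sum_nonneg fun i _ => hg0 _ _ _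
      have p1 : 0 ≤ ∑ i ∈ S with Above lv ps n m i, g i (n + 1) (2 * m + 1) :=
        sum_nonneg fun i _ => hg0 _ _ _
      have q : (1 / 2 : ℝ) ^ (n + 1) = (1 / 2) ^ n / 2 := by rw [pow_succ]; ring
      have i0 := ih (n + 1) (2 * m) (by omega) (by rw [c0, q]; linarith)
      have i1 := ih (n + 1) (2 * m + 1) (by omega) (by rw [c1, q]; linarith)
      rw [c0, q] at i0
      rw [c1, q] at i1
      linarith

open Classical in
/-- **Stopping lemma with a measure.** `ν` is additive on cells and `ν ≥ length` on the cells of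
the family. -/
theorem stop_measure (S : Finset ι) (g : ι → ℕ → ℤ → ℝ) 
    (hadd : ∀ i ∈ S, ∀ n m, Above lv ps n m i →
      g i n m = g i (n + 1) (2 * m) + g i (n + 1) (2 * m + 1))
    (hg0 : ∀ i n m, 0 ≤ g i n m)
    {α κ : ℝ} (hα : 0 ≤ α) (hκ : 0 ≤ κ)
    (h1 : ∀ n m, ∑ i ∈ S with (lv i = n ∧ ps i = m), g i n m ≤ α * (1 / 2) ^ n)
    (h2 : ∀ n m, κ * (1 / 2) ^ n < ∑ i ∈ S with Above lv ps n m i, g i n m →
      ∀ i ∈ S, Below lv ps n m i → lv i = n)
    (ν : ℕ → ℤ → ℝ) (hν0 : ∀ n m, 0 ≤ ν n m)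
    (hνadd : ∀ n m, ν (n + 1) (2 * m) + ν (n + 1) (2 * m + 1) ≤ ν n m)
    (hν : ∀ i ∈ S, (1 / 2) ^ (lv i) ≤ ν (lv i) (ps i))
    {D : ℕ} (hD : ∀ i ∈ S, lv i < D) (k : ℕ) : ∀ n m, D ≤ n + k →
      (∀ i ∈ S, Above lv ps n m i → lv i = n) →
      ∑ i ∈ S with Below lv ps n m i, g i (lv i) (ps i) ≤ (2 * κ + α) * ν n m := by
  induction k with
  | zero =>
    intro n m hn _
    have e : S.filter (fun i => Below lv ps n m i) = ∅ := by
      rw [filter_eq_empty_iff]
      rintro i hi ⟨h, _⟩
      have := hD i hi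
      omega
    rw [e, sum_empty]
    have := hν0 n m
    positivity
  | succ k ih =>
    intro n m hn hab
    by_cases hex : ∃ i ∈ S, lv i = n ∧ ps i = m
    · obtain ⟨i, hi, hl, hp⟩ := hex
      have e : S.filter (fun i => Above lv ps n m i ∧ lv i < n) = ∅ := by
        rw [filter_eq_empty_iff]
        rintro i hi ⟨h, h'⟩
        have := hab i hi h
        omega
      have := stop lv ps S g hadd hg0 hα h1 h2 hD D n m (by omega)
        (by rw [e, sum_empty]; positivity)
      rw [e, sum_empty, add_zero] at this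
      have hh := hν i hi
      rw [hl, hp] at hh
      calc _ ≤ _ := this
        _ ≤ _ := by gcongr
    · rw [sum_below lv ps S _ n m]
      have e : S.filter (fun i => lv i = n ∧ ps i = m) = ∅ := by
        rw [filter_eq_empty_iff]
        intro i hi h
        exact hex ⟨i, hi, h⟩
      rw [e, sum_empty, zero_add]
      have hno : ∀ i ∈ S, ¬ Above lv ps n m i := by
        intro i hi h
        have h3 := hab i hi h
        apply hex
        refine ⟨i, hi, h3, ?_⟩
        rw [← h.2, h3, anc_self]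
      have i0 := ih (n + 1) (2 * m) (by omega) (by
        intro i hi h
        by_contra hne
        have h4 : lv i < n + 1 := lt_of_le_of_ne h.1 hne
        exact hno i hi ((above_child0 lv ps n m i).1 ⟨h, h4⟩))
      have i1 := ih (n + 1) (2 * m + 1) (by omega) (by
        intro i hi h
        by_contra hne
        have h4 : lv i < n + 1 := lt_of_le_of_ne h.1 hne
        exact hno i hi ((above_child1 lv ps n m i).1 ⟨h, h4⟩))
      have h5 := hνadd n m
      have h6 : 0 ≤ 2 * κ + α := by positivity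
      nlinarith

end

end Vale.Agent.P112.H54
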