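import Mathlib

/-!
# P112, block KT: weak (2,2) bound for vertical averages
-/

namespace Vale.Agent.P112.H54

open MeasureTheory Set Metric
open scoped ENNReal

lemma two_mul_le_sq (K : ℝ≥0∞) (hK : K ≠ ∞) (a : ℝ≥0∞) : 2 * K * a ≤ a ^ 2 + K ^ 2 := by
  by_cases ha : a = ∞
  · subst ha
    simp
  · lift a to NNReal using ha
    lift K to NNReal using hK
    norm_cast
    have := two_mul_le_add_sq (a : ℝ) (K : ℝ)
    have h : ((2 * K * a : NNReal) : ℝ) ≤ ((a ^ 2 + K ^ 2 : NNReal) : ℝ) := by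
      push_cast
      nlinarith
    exact_mod_cast h

/-- on one interval: if the average of `f` is `≥ K` then `K² |B| ≤ ∫_B f²`. -/
lemma avg_sq (f : ℝ → ℝ≥0∞) {K r c : ℝ} (hK : 0 < K)
    (h : ENNReal.ofReal (K * (2 * r)) ≤ ∫⁻ t in closedBall c r, f t) :
    ENNReal.ofReal (K ^ 2) * ENNReal.ofReal (2 * r) ≤ ∫⁻ t in closedBall c r, f t ^ 2 := by
  set k := ENNReal.ofReal K with hk
  have hkt : k ≠ ∞ := ENNReal.ofReal_ne_top
  have hv : volume (closedBall c r) = ENNReal.ofReal (2 * r) := Real.volume_closedBall c r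
  have e1 : ENNReal.ofReal (K * (2 * r)) = k * ENNReal.ofReal (2 * r) :=
    ENNReal.ofReal_mul hK.le
  have e2 : ENNReal.ofReal (K ^ 2) = k ^ 2 := ENNReal.ofReal_pow hK.le 2
  have h3 : 2 * k * ∫⁻ t in closedBall c r, f t ≤
      (∫⁻ t in closedBall c r, f t ^ 2) + k ^ 2 * ENNReal.ofReal (2 * r) := by
    calc 2 * k * ∫⁻ t in closedBall c r, f t
        ≤ ∫⁻ t in closedBall c r, 2 * k * f t := lintegral_const_mul_le _ _
      _ ≤ ∫⁻ t in closedBall c r, (f t ^ 2 + k ^ 2) :=
          lintegral_mono fun t => two_mul_le_sq k hkt (f t)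
      _ = (∫⁻ t in closedBall c r, f t ^ 2) + ∫⁻ t in closedBall c r, k ^ 2 := by
          rw [lintegral_add_right _ measurable_const]
      _ = _ := by rw [setLIntegral_const, hv]
  have h4 : 2 * k * (k * ENNReal.ofReal (2 * r)) ≤ 2 * k * ∫⁻ t in closedBall c r, f t := by
    rw [← e1]
    gcongr
  have h5 : k ^ 2 * ENNReal.ofReal (2 * r) + k ^ 2 * ENNReal.ofReal (2 * r) ≤
      (∫⁻ t in closedBall c r, f t ^ 2) + k ^ 2 * ENNReal.ofReal (2 * r) := by
    calc _ = 2 * k * (k * ENNReal.ofReal (2 * r)) := by ring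
      _ ≤ _ := h4.trans h3
  have h6 : k ^ 2 * ENNReal.ofReal (2 * r) ≠ ∞ :=
    ENNReal.mul_ne_top (ENNReal.pow_ne_top hkt) ENNReal.ofReal_ne_top
  rw [e2]
  exact (ENNReal.add_le_add_iff_right h6).1 h5

/-- one-dimensional weak (2,2) bound -/
theorem weak22 (f : ℝ → ℝ≥0∞) {K : ℝ} (hK : 0 < K) (A : Set ℝ)
    (h : ∀ y ∈ A, ∃ c r, 0 < r ∧ y ∈ closedBall c r ∧
      ENNReal.ofReal (K * (2 * r)) ≤ ∫⁻ t in closedBall c r, f t) :
    ENNReal.ofReal (K ^ 2) * volume A ≤ 5 * ∫⁻ t, f t ^ 2 := by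
  by_cases htop : ∫⁻ t, f t ^ 2 = ∞
  · rw [htop]
    simp
  choose! c r hr hy hav using h
  have hb : ∀ a ∈ A, ENNReal.ofReal (K ^ 2) * ENNReal.ofReal (2 * r a) ≤
      ∫⁻ t in closedBall (c a) (r a), f t ^ 2 := fun a ha => avg_sq f hK (hav a ha)
  obtain ⟨u, huA, hdis, hcov⟩ := Vitali.exists_disjoint_subfamily_covering_enlargement_closedBall
    A c r ((∫⁻ t, f t ^ 2).toReal / (2 * K ^ 2)) (by
      intro a ha
      have h1 := (hb a ha).trans (setLIntegral_le_lintegral _ _)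
      rw [← ENNReal.ofReal_mul (by positivity)] at h1
      have h2 := (ENNReal.ofReal_le_iff_le_toReal htop).1 h1
      rw [le_div_iff₀ (by positivity)]
      nlinarith) 5 (by norm_num)
  have hcount : u.Countable := hdis.countable_of_nonempty_interior (by
    intro a ha
    have := hr a (huA ha)
    refine ⟨c a, ?_⟩
    exact ball_subset_interior_closedBall (mem_ball_self this))
  have hsub : A ⊆ ⋃ b ∈ u, closedBall (c b) (5 * r b) := by
    intro a ha
    obtain ⟨b, hb, hab⟩ := hcov a ha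
    exact mem_biUnion hb (hab (hy a ha))
  calc ENNReal.ofReal (K ^ 2) * volume A
      ≤ ENNReal.ofReal (K ^ 2) * ∑' b : u, volume (closedBall (c b) (5 * r b)) := by
        gcongr
        exact (measure_mono hsub).trans (measure_biUnion_le _ hcount _)
    _ = ∑' b : u, ENNReal.ofReal (K ^ 2) * volume (closedBall (c b) (5 * r b)) :=
        ENNReal.tsum_mul_left.symm
    _ ≤ ∑' b : u, 5 * ∫⁻ t in closedBall (c b) (r b), f t ^ 2 := by
        refine ENNReal.tsum_le_tsum fun b => ?_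
        have e : volume (closedBall (c b) (5 * r b)) = 5 * ENNReal.ofReal (2 * r b) := by
          rw [Real.volume_closedBall, show (2 : ℝ) * (5 * r b) = 5 * (2 * r b) by ring,
            ENNReal.ofReal_mul (by norm_num)]
          norm_num
        rw [e]
        calc _ = 5 * (ENNReal.ofReal (K ^ 2) * ENNReal.ofReal (2 * r b)) := by ring
          _ ≤ _ := by gcongr; exact hb b (huA b.2)
    _ = 5 * ∑' b : u, ∫⁻ t in closedBall (c b) (r b), f t ^ 2 := ENNReal.tsum_mul_left
    _ = 5 * ∫⁻ t in ⋃ b ∈ u, closedBall (c b) (r b), f t ^ 2 := by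
        rw [lintegral_biUnion hcount (fun b _ => measurableSet_closedBall) hdis]
    _ ≤ _ := by gcongr; exact Measure.restrict_le_self

/-- two-dimensional form -/
theorem weak22_prod (N : ℝ × ℝ → ℝ≥0∞) (hN : Measurable N) {K : ℝ} (hK : 0 < K)
    (U : Set (ℝ × ℝ)) (hU : MeasurableSet U)
    (h : ∀ z ∈ U, ∃ c r, 0 < r ∧ z.2 ∈ closedBall c r ∧
      ENNReal.ofReal (K * (2 * r)) ≤ ∫⁻ t in closedBall c r, N (z.1, t)) :
    ENNReal.ofReal (K ^ 2) * volume U ≤ 5 * ∫⁻ z, N z ^ 2 := by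
  rw [Measure.volume_eq_prod, Measure.prod_apply hU, lintegral_prod _ (hN.pow_const 2).aemeasurable,
    ← lintegral_const_mul _ (measurable_measure_prodMk_left hU),
    ← lintegral_const_mul _ (hN.pow_const 2).lintegral_prod_right']
  refine lintegral_mono fun x => ?_
  refine weak22 (fun t => N (x, t)) hK _ ?_
  intro y hy
  exact h (x, y) hy

/-- measure of a set with bounded vertical slices over a set `X` -/
theorem vol_le_of_slices {S : Set (ℝ × ℝ)} (hS : MeasurableSet S) {X : Set ℝ}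
    (hX : MeasurableSet X) (H : ℝ≥0∞) (h0 : ∀ x ∉ X, volume (Prod.mk x ⁻¹' S) = 0)
    (h1 : ∀ x ∈ X, volume (Prod.mk x ⁻¹' S) ≤ H) : volume S ≤ H * volume X := by
  rw [Measure.volume_eq_prod, Measure.prod_apply hS]
  calc ∫⁻ x, volume (Prod.mk x ⁻¹' S) ≤ ∫⁻ x, X.indicator (fun _ => H) x := by
        refine lintegral_mono fun x => ?_
        by_cases hx : x ∈ X
        · rw [indicator_of_mem hx]
          exact h1 x hx
        · rw [h0 x hx]
          exact zero_le
    _ = _ := by rw [lintegral_indicator hX, setLIntegral_const]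

end Vale.Agent.P112.H54
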